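import Mathlib.Probability.ConditionalProbability
import Mathlib.MeasureTheory.Integral.Bochner.Basic
import Vale.Agent.P125.Defs

/-!
Markov type with the Markov chains as random processes, and the modulus of smoothness.
-/

namespace Vale.Agent.P125W88

open MeasureTheory ProbabilityTheory Filter Topology
open scoped ENNReal

/-- `Z 0, Z 1, ...` are random variables on the probability space `(Ω, μ)` with values in the
finite set `S` which form a Markov chain with initial distribution `π` and transition matrix `P`: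
the law of `Z 0` is `π`, and conditionally on `Z 0 = x 0, ..., Z n = x n` the law of `Z (n+1)` is
the row `x n` of `P`. -/
structure IsChain {S Ω : Type*} [Fintype S] [MeasurableSpace Ω] (μ : Measure Ω) (π : S → ℝ)
    (P : Matrix S S ℝ) (Z : ℕ → Ω → S) : Prop where
  prob : IsProbabilityMeasure μ
  meas : ∀ t i, MeasurableSet {ω | Z t ω = i}
  nonneg : ∀ i j, 0 ≤ P i j
  sum_one : ∀ i, ∑ j, P i j = 1
  init : ∀ i, μ.real {ω | Z 0 ω = i} = π i
  markov : ∀ (n : ℕ) (x : ℕ → S) (j : S), μ {ω | ∀ k ≤ n, Z k ω = x k} ≠ 0 →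
    (cond μ {ω | ∀ k ≤ n, Z k ω = x k}).real {ω | Z (n + 1) ω = j} = P (x n) j

/-- `X` has Markov type `p`: for some `K`, every stationary reversible finite Markov chain `Z`,
every `f` and every `t ≥ 1`, `E ‖f (Z t) - f (Z 0)‖ ^ p ≤ K ^ p t E ‖f (Z 1) - f (Z 0)‖ ^ p`. -/
def MarkovType (X : Type*) [NormedAddCommGroup X] (p : ℝ) : Prop :=
  ∃ K : ℝ, 0 ≤ K ∧ ∀ (S Ω : Type) [Fintype S] [MeasurableSpace Ω] (μ : Measure Ω) (π : S → ℝ)
    (P : Matrix S S ℝ) (Z : ℕ → Ω → S), IsChain μ π P Z → (∀ i j, π i * P i j = π j * P j i) →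
    ∀ (f : S → X) (t : ℕ), 1 ≤ t →
      ∫ ω, ‖f (Z t ω) - f (Z 0 ω)‖ ^ p ∂μ ≤ K ^ p * t * ∫ ω, ‖f (Z 1 ω) - f (Z 0 ω)‖ ^ p ∂μ

/-- The modulus of smoothness `ρ(τ)` of `N`. -/
noncomputable def rho {X : Type*} [AddCommGroup X] [Module ℝ X] (N : Seminorm ℝ X) (τ : ℝ) :
    ℝ≥0∞ :=
  ⨆ (x : X) (y : X) (_ : N x = 1) (_ : N y = 1),
    ENNReal.ofReal ((N (x + τ • y) + N (x - τ • y)) / 2 - 1)

/-- `N` is uniformly smooth: `ρ(τ) / τ → 0` as `τ → 0+`. -/
def Smooth {X : Type*} [AddCommGroup X] [Module ℝ X] (N : Seminorm ℝ X) : Prop :=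
  Tendsto (fun τ : ℝ => rho N τ / ENNReal.ofReal τ) (𝓝[>] 0) (𝓝 0)

end Vale.Agent.P125W88
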