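import Mathlib
import Vale.Agent.P125W88.Defs
import Vale.Agent.P125.Bdl.B1

namespace Vale.Agent.P125W88

open MeasureTheory ProbabilityTheory Filter Topology
open scoped ENNReal

section law

variable {S Ω : Type*} [Fintype S] [MeasurableSpace Ω] {μ : Measure Ω} {π : S → ℝ}
  {P : Matrix S S ℝ} {Z : ℕ → Ω → S}

theorem IsChain.meas_past (h : IsChain μ π P Z) (n : ℕ) (x : ℕ → S) :
    MeasurableSet {ω | ∀ k ≤ n, Z k ω = x k} := by
  have : {ω | ∀ k ≤ n, Z k ω = x k} = ⋂ k, ⋂ (_ : k ≤ n), {ω | Z k ω = x k} := by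
    ext ω; simp
  rw [this]
  exact MeasurableSet.iInter fun k => MeasurableSet.iInter fun _ => h.meas k _

theorem IsChain.step (h : IsChain μ π P Z) (n : ℕ) (x : ℕ → S) (j : S) :
    μ.real ({ω | ∀ k ≤ n, Z k ω = x k} ∩ {ω | Z (n + 1) ω = j}) =
      μ.real {ω | ∀ k ≤ n, Z k ω = x k} * P (x n) j := by
  haveI := h.prob
  by_cases h0 : μ {ω | ∀ k ≤ n, Z k ω = x k} = 0
  · have h1 : μ ({ω | ∀ k ≤ n, Z k ω = x k} ∩ {ω | Z (n + 1) ω = j}) = 0 :=
      measure_mono_null Set.inter_subset_left h0
    simp [Measure.real, h0, h1]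
  · have h2 := h.markov n x j h0
    rw [Measure.real, cond_apply (h.meas_past n x), ENNReal.toReal_mul, ENNReal.toReal_inv] at h2
    have h3 : (μ {ω | ∀ k ≤ n, Z k ω = x k}).toReal ≠ 0 :=
      ENNReal.toReal_ne_zero.2 ⟨h0, measure_ne_top _ _⟩
    rw [← h2, Measure.real, Measure.real]
    field_simp

theorem IsChain.step2 (h : IsChain μ π P Z) (n : ℕ) (i k j : S) :
    μ.real ({ω | Z 0 ω = i ∧ Z n ω = k} ∩ {ω | Z (n + 1) ω = j}) =
      μ.real {ω | Z 0 ω = i ∧ Z n ω = k} * P k j := by
  classical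
  haveI := h.prob
  set Y : Ω → Fin (n + 1) → S := fun ω a => Z a ω with hY
  have hpre : ∀ y : Fin (n + 1) → S, Y ⁻¹' {y} =
      {ω | ∀ a ≤ n, Z a ω = (fun a : ℕ => y ⟨min a n, by omega⟩) a} := by
    intro y
    ext ω
    simp only [Set.mem_preimage, Set.mem_singleton_iff, Set.mem_setOf_eq, hY]
    constructor
    · intro e a ha
      rw [← e]
      simp [min_eq_left ha]
    · intro e
      funext a
      have ha : (a : ℕ) ≤ n := by omega
      rw [e a ha]
      congr 1
      ext
      simp [min_eq_left ha]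
  have hm : ∀ y : Fin (n + 1) → S, MeasurableSet (Y ⁻¹' {y}) := fun y => by
    rw [hpre]; exact h.meas_past n _
  set T : Finset (Fin (n + 1) → S) := Finset.univ.filter fun y => y 0 = i ∧ y (Fin.last n) = k
    with hT
  have hA : {ω | Z 0 ω = i ∧ Z n ω = k} = Y ⁻¹' (T : Set (Fin (n + 1) → S)) := by
    ext ω; simp [hT, hY]
  have hB := h.meas (n + 1) j
  rw [hA, ← measureReal_restrict_apply' hB,
    ← sum_measureReal_preimage_singleton T (fun y _ => hm y) (fun _ _ => measure_ne_top _ _),
    ← sum_measureReal_preimage_singleton T (fun y _ => hm y) (fun _ _ => measure_ne_top _ _),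
    Finset.sum_mul]
  refine Finset.sum_congr rfl fun y hy => ?_
  rw [measureReal_restrict_apply' hB, hpre, h.step]
  have hk : y (Fin.last n) = k := by
    simp only [hT, Finset.mem_filter] at hy
    exact hy.2.2
  congr 2
  rw [← hk]
  congr 1
  ext
  simp

theorem IsChain.joint [DecidableEq S] (h : IsChain μ π P Z) (t : ℕ) (i j : S) :
    μ.real {ω | Z 0 ω = i ∧ Z t ω = j} = π i * (P ^ t) i j := by
  haveI := h.prob
  induction t generalizing j with
  | zero =>
    rw [pow_zero, Matrix.one_apply]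
    split_ifs with e
    · subst e
      simp [h.init]
    · have : {ω | Z 0 ω = i ∧ Z 0 ω = j} = ∅ := by
        ext ω
        simp only [Set.mem_setOf_eq, Set.mem_empty_iff_false, iff_false, not_and]
        intro a b
        exact e (a.symm.trans b)
      simp [this]
  | succ n ih =>
    have hB : MeasurableSet ({ω | Z 0 ω = i} ∩ {ω | Z (n + 1) ω = j}) :=
      (h.meas 0 i).inter (h.meas _ j)
    have e1 : μ.real {ω | Z 0 ω = i ∧ Z (n + 1) ω = j} =
        (μ.restrict ({ω | Z 0 ω = i} ∩ {ω | Z (n + 1) ω = j})).real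
          (Z n ⁻¹' ((Finset.univ : Finset S) : Set S)) := by
      rw [measureReal_restrict_apply' hB]
      congr 1
      ext ω
      simp
    rw [e1, ← sum_measureReal_preimage_singleton Finset.univ (fun y _ => h.meas n y)
      (fun _ _ => measure_ne_top _ _), pow_succ, Matrix.mul_apply, Finset.mul_sum]
    refine Finset.sum_congr rfl fun k _ => ?_
    rw [measureReal_restrict_apply' hB, ← mul_assoc, ← ih k, ← h.step2]
    congr 1
    ext ω
    simp only [Set.mem_inter_iff, Set.mem_preimage, Set.mem_singleton_iff, Set.mem_setOf_eq]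
    tauto

theorem IsChain.expect [DecidableEq S] (h : IsChain μ π P Z) (t : ℕ) (g : S → S → ℝ) :
    Integrable (fun ω => g (Z 0 ω) (Z t ω)) μ ∧
      ∫ ω, g (Z 0 ω) (Z t ω) ∂μ = ∑ i, ∑ j, π i * (P ^ t) i j * g i j := by
  haveI := h.prob
  have hm : ∀ i j, MeasurableSet {ω | Z 0 ω = i ∧ Z t ω = j} := fun i j =>
    (h.meas 0 i).inter (h.meas t j)
  have e : (fun ω => g (Z 0 ω) (Z t ω)) = fun ω => ∑ i, ∑ j,
      {ω | Z 0 ω = i ∧ Z t ω = j}.indicator (fun _ => g i j) ω := by
    funext ω
    rw [Finset.sum_eq_single (Z 0 ω), Finset.sum_eq_single (Z t ω)]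
    · simp
    · intro j _ hj
      simp [Ne.symm hj]
    · simp
    · intro i _ hi
      refine Finset.sum_eq_zero fun j _ => ?_
      simp [Ne.symm hi]
    · simp
  have hi : ∀ i j, Integrable
      ({ω | Z 0 ω = i ∧ Z t ω = j}.indicator fun _ => g i j) μ := fun i j =>
    (integrable_const _).indicator (hm i j)
  rw [e]
  refine ⟨integrable_finset_sum _ fun i _ => integrable_finset_sum _ fun j _ => hi i j, ?_⟩
  rw [integral_finset_sum _ fun i _ => integrable_finset_sum _ fun j _ => hi i j]
  refine Finset.sum_congr rfl fun i _ => ?_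
  rw [integral_finset_sum _ fun j _ => hi i j]
  refine Finset.sum_congr rfl fun j _ => ?_
  rw [integral_indicator_const _ (hm i j), h.joint, smul_eq_mul]

theorem IsChain.pi_nonneg (h : IsChain μ π P Z) (i : S) : 0 ≤ π i := by
  rw [← h.init]; exact measureReal_nonneg

theorem IsChain.pi_sum (h : IsChain μ π P Z) : ∑ i, π i = 1 := by
  haveI := h.prob
  have := sum_measureReal_preimage_singleton (μ := μ) (f := Z 0) Finset.univ
    (fun y _ => h.meas 0 y) (fun _ _ => measure_ne_top _ _)
  simp only [Finset.coe_univ, Set.preimage_univ, probReal_univ] at this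
  rw [← this]
  exact Finset.sum_congr rfl fun i _ => (h.init i).symm

theorem IsChain.stationary (h : IsChain μ π P Z) (hr : ∀ i j, π i * P i j = π j * P j i)
    (t : ℕ) (j : S) : μ.real {ω | Z t ω = j} = π j := by
  classical
  haveI := h.prob
  have h1 : ∀ (t : ℕ) (j : S), ∑ i, π i * (P ^ t) i j = π j := by
    intro t
    induction t with
    | zero => intro j; simp [Matrix.one_apply]
    | succ n ih =>
      intro j
      simp only [pow_succ, Matrix.mul_apply, Finset.mul_sum]
      rw [Finset.sum_comm]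
      calc ∑ k, ∑ i, π i * ((P ^ n) i k * P k j) = ∑ k, π j * P j k := by
            refine Finset.sum_congr rfl fun k _ => ?_
            rw [← hr, ← ih k, Finset.sum_mul]
            exact Finset.sum_congr rfl fun i _ => by ring
        _ = π j := by rw [← Finset.mul_sum, h.sum_one, mul_one]
  have e1 : μ.real {ω | Z t ω = j} = (μ.restrict {ω | Z t ω = j}).real
      (Z 0 ⁻¹' ((Finset.univ : Finset S) : Set S)) := by
    rw [measureReal_restrict_apply' (h.meas t j)]
    simp
  rw [e1, ← sum_measureReal_preimage_singleton Finset.univ (fun y _ => h.meas 0 y)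
    (fun _ _ => measure_ne_top _ _), ← h1 t j]
  refine Finset.sum_congr rfl fun i _ => ?_
  rw [measureReal_restrict_apply' (h.meas t j), ← h.joint]
  rfl

end law

section exi

variable {S : Type} [Fintype S]

/-- The law with weights `w`. -/
noncomputable def law [MeasurableSpace S] (w : S → ℝ) : Measure S :=
  ∑ j, ENNReal.ofReal (w j) • Measure.dirac j

theorem law_single [MeasurableSpace S] [DiscreteMeasurableSpace S] (w : S → ℝ) (j : S) :
    law w {j} = ENNReal.ofReal (w j) := by
  classical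
  rw [law, Measure.finset_sum_apply, Finset.sum_eq_single j]
  · simp
  · intro i _ hi
    simp [hi]
  · simp

theorem law_prob [MeasurableSpace S] {w : S → ℝ} (h0 : ∀ j, 0 ≤ w j) (h1 : ∑ j, w j = 1) :
    IsProbabilityMeasure (law w) := by
  refine ⟨?_⟩
  rw [law, Measure.finset_sum_apply]
  simp only [Measure.smul_apply, measure_univ, smul_eq_mul, mul_one]
  rw [← ENNReal.ofReal_sum_of_nonneg fun j _ => h0 j, h1, ENNReal.ofReal_one]

/-- The chain driven by random maps. -/
def walk : ℕ → S × (ℕ × S → S) → S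
  | 0, ω => ω.1
  | n + 1, ω => ω.2 (n, walk n ω)

theorem past_eq [DecidableEq S] (n : ℕ) (x : ℕ → S) :
    {ω : S × (ℕ × S → S) | ∀ k ≤ n, walk k ω = x k} =
      {x 0} ×ˢ Set.pi (((Finset.range n).image fun k => (k, x k) : Finset (ℕ × S)) : Set (ℕ × S))
        fun q => {x (q.1 + 1)} := by
  ext ω
  simp only [Set.mem_setOf_eq, Set.mem_prod, Set.mem_singleton_iff, Set.mem_pi, Finset.coe_image,
    Finset.coe_range, Set.mem_image, Set.mem_Iio, forall_exists_index, and_imp,
    forall_apply_eq_imp_iff₂]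
  constructor
  · intro e
    refine ⟨e 0 (Nat.zero_le _), fun k hk => ?_⟩
    rw [← e k hk.le]
    exact e (k + 1) hk
  · rintro ⟨e0, e⟩ k hk
    induction k with
    | zero => exact e0
    | succ m ih =>
      rw [walk, ih (by omega)]
      exact e m hk

theorem exists_chain {π : S → ℝ} {P : Matrix S S ℝ} (h0 : ∀ i, 0 ≤ π i) (h1 : ∑ i, π i = 1)
    (p0 : ∀ i j, 0 ≤ P i j) (p1 : ∀ i, ∑ j, P i j = 1) :
    ∃ (Ω : Type) (_ : MeasurableSpace Ω) (μ : Measure Ω) (Z : ℕ → Ω → S), IsChain μ π P Z := by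
  classical
  letI : MeasurableSpace S := ⊤
  haveI : DiscreteMeasurableSpace S := ⟨fun _ => trivial⟩
  haveI := law_prob h0 h1
  haveI : ∀ q : ℕ × S, IsProbabilityMeasure (law (P q.2)) := fun q => law_prob (p0 _) (p1 _)
  set μ : Measure (S × (ℕ × S → S)) :=
    (law π).prod (Measure.infinitePi fun q : ℕ × S => law (P q.2)) with hμ
  have hw : ∀ n, Measurable (walk (S := S) n) := by
    intro n
    induction n with
    | zero => exact measurable_fst
    | succ n ih =>
      have : Measurable fun z : (S × (ℕ × S → S)) × S => z.1.2 (n, z.2) :=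
        measurable_from_prod_countable_left fun s =>
          (measurable_pi_apply (X := fun _ : ℕ × S => S) (n, s)).comp measurable_snd
      exact this.comp (measurable_id.prodMk ih)
  have hm : ∀ t i, MeasurableSet {ω : S × (ℕ × S → S) | walk t ω = i} := fun t i =>
    hw t (measurableSet_singleton i)
  have hp : ∀ (n : ℕ) (x : ℕ → S), μ {ω | ∀ k ≤ n, walk k ω = x k} =
      ENNReal.ofReal (π (x 0)) * ∏ k ∈ Finset.range n, ENNReal.ofReal (P (x k) (x (k + 1))) := by
    intro n x
    rw [past_eq, hμ, Measure.prod_prod, law_single,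
      Measure.infinitePi_pi _ fun _ _ => measurableSet_singleton _,
      Finset.prod_image fun a _ b _ e => (Prod.ext_iff.1 e).1]
    simp only [law_single]
  refine ⟨S × (ℕ × S → S), inferInstance, μ, walk, inferInstance, hm, p0, p1, fun i => ?_,
    fun n x j hx => ?_⟩
  · have := hp 0 fun _ => i
    simp only [nonpos_iff_eq_zero, forall_eq, Finset.range_zero, Finset.prod_empty,
      mul_one] at this
    rw [Measure.real, this, ENNReal.toReal_ofReal (h0 i)]
  · have hmp : MeasurableSet {ω : S × (ℕ × S → S) | ∀ k ≤ n, walk k ω = x k} := by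
      have : {ω : S × (ℕ × S → S) | ∀ k ≤ n, walk k ω = x k} =
          ⋂ k, ⋂ (_ : k ≤ n), {ω | walk k ω = x k} := by
        ext ω; simp
      rw [this]
      exact MeasurableSet.iInter fun k => MeasurableSet.iInter fun _ => hm k _
    have e : {ω : S × (ℕ × S → S) | ∀ k ≤ n, walk k ω = x k} ∩ {ω | walk (n + 1) ω = j} =
        {ω | ∀ k ≤ n + 1, walk k ω = Function.update x (n + 1) j k} := by
      ext ω
      simp only [Set.mem_inter_iff, Set.mem_setOf_eq]
      constructor
      · rintro ⟨a, b⟩ k hk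
        rcases Nat.lt_or_eq_of_le hk with hk | rfl
        · rw [Function.update_of_ne hk.ne]
          exact a k (by omega)
        · rw [Function.update_self]
          exact b
      · intro a
        refine ⟨fun k hk => ?_, ?_⟩
        · rw [a k (by omega), Function.update_of_ne (by omega)]
        · rw [a _ le_rfl, Function.update_self]
    have e2 : μ {ω | ∀ k ≤ n + 1, walk k ω = Function.update x (n + 1) j k} =
        μ {ω | ∀ k ≤ n, walk k ω = x k} * ENNReal.ofReal (P (x n) j) := by
      rw [hp, hp, Finset.prod_range_succ, ← mul_assoc, Function.update_self,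
        Function.update_of_ne (by omega), Function.update_of_ne (by omega)]
      congr 2
      refine Finset.prod_congr rfl fun k hk => ?_
      have := Finset.mem_range.1 hk
      rw [Function.update_of_ne (by omega), Function.update_of_ne (by omega)]
    rw [Measure.real, cond_apply hmp, e, e2, ← mul_assoc,
      ENNReal.inv_mul_cancel hx (measure_ne_top _ _), one_mul, ENNReal.toReal_ofReal (p0 _ _)]

end exi

theorem type_iff {X : Type*} [NormedAddCommGroup X] {p : ℝ} :
    MarkovType X p ↔ ∃ K : ℝ, 0 ≤ K ∧ _root_.P125.MarkovIneq (fun x : X => ‖x‖) p K := by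
  constructor
  · rintro ⟨K, hK, h⟩
    refine ⟨K, hK, fun S _ _ π P hc f t ht => ?_⟩
    obtain ⟨Ω, _, μ, Z, hZ⟩ := exists_chain hc.pi_nonneg hc.pi_sum hc.P_nonneg hc.P_sum
    have := h S Ω μ π P Z hZ hc.reversible f t ht
    rwa [(hZ.expect t fun i j => ‖f j - f i‖ ^ p).2,
      (hZ.expect 1 fun i j => ‖f j - f i‖ ^ p).2] at this
  · rintro ⟨K, hK, h⟩
    refine ⟨K, hK, fun S Ω _ _ μ π P Z hZ hr f t ht => ?_⟩
    classical
    rw [(hZ.expect t fun i j => ‖f j - f i‖ ^ p).2, (hZ.expect 1 fun i j => ‖f j - f i‖ ^ p).2]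
    exact h S π P ⟨hZ.pi_nonneg, hZ.pi_sum, hZ.nonneg, hZ.sum_one, hr⟩ f t ht

theorem smooth_of {X : Type*} [AddCommGroup X] [Module ℝ X] {N : Seminorm ℝ X}
    (h : _root_.P125.UniformlySmoothNorm N) : Smooth N := by
  rw [Smooth, ENNReal.tendsto_nhds_zero]
  intro ε hε
  obtain ⟨e, he0, he⟩ : ∃ e : ℝ, 0 < e ∧ ENNReal.ofReal e ≤ ε := by
    rcases eq_or_ne ε ⊤ with rfl | hne
    · exact ⟨1, one_pos, le_top⟩
    · exact ⟨ε.toReal, ENNReal.toReal_pos hε.ne' hne, by rw [ENNReal.ofReal_toReal hne]⟩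
  obtain ⟨τ₀, h0, hτ⟩ := h e he0
  filter_upwards [Ioc_mem_nhdsGT h0] with τ ht
  refine le_trans (ENNReal.div_le_of_le_mul ?_) he
  rw [← ENNReal.ofReal_mul he0.le]
  exact iSup_le fun x => iSup_le fun y => iSup_le fun hx => iSup_le fun hy =>
    ENNReal.ofReal_le_ofReal (hτ τ ht.1 ht.2 x y hx hy)

theorem main {X : Type*} [NormedAddCommGroup X] [NormedSpace ℝ X] {p : ℝ} (hp : 1 < p)
    (h : MarkovType X p) : _root_.P125.Superreflexive X ∧
      ∃ N : Seminorm ℝ X, _root_.P125.EquivalentNorm N ∧ Smooth N := by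
  obtain ⟨a, N, b, c⟩ := _root_.P125.superreflexive_of_hasMarkovType hp
    (⟨by linarith, type_iff.1 h⟩ : _root_.P125.HasMarkovType X p)
  exact ⟨a, N, b, smooth_of c⟩

end Vale.Agent.P125W88
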